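import Vale.Agent.P227.M.LK.DescK

/-! # P254/NS: the level-`k` descent for a centred potential, no evenness (helper541; the computations of
`mass_leN`, `descentT` are helper447's `LK/DescK.lean`). Tilts `c ↦ c + ⟪v, ·⟫` change nothing. -/

open MeasureTheory Set Filter Topology

namespace Vale.Agent.P254.NS.Desc541

open Vale.Agent.P227.M.LK.Dsc

variable {E : Type*} [NormedAddCommGroup E] [InnerProductSpace ℝ E] [FiniteDimensional ℝ E]
  [MeasurableSpace E] [BorelSpace E]

set_option linter.unusedSectionVars false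

variable {V : E → ℝ} {k a b : ℝ} {c : E → ℝ}

/-! ### tilts -/

theorem phi_tilt (c : E → ℝ) (v y : E) : phi k (fun x => c x + inner ℝ v x) y = phi k c (y - v) := by
  rw [phi_eq, phi_eq]
  congr 3
  funext x
  rw [inner_sub_right, real_inner_comm v x]
  congr 1
  ring

theorem Z_tilt (c : E → ℝ) (v : E) : Z k (fun x => c x + inner ℝ v x) = Z k c := by
  unfold Z
  simp only [phi_tilt]
  exact integral_sub_right_eq_self (fun y : E => Real.exp (-phi k c y)) v

theorem int1_tilt (hk : 0 < k) (ha : 0 < a) (h : Qg a b c) (v y : E) :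
    Integrable fun x : E => Real.exp (k * inner ℝ x y - k * (c x + inner ℝ v x)) := by
  refine (h.int1 hk ha (y - v)).congr (Eventually.of_forall fun x => ?_)
  simp only
  rw [inner_sub_right, real_inner_comm v x]
  congr 1
  ring

theorem int3_tilt (hk : 0 < k) (ha : 0 < a) (hb : 0 < b) (h : Qg a b c) (v : E) :
    Integrable fun y : E => Real.exp (-phi k (fun x => c x + inner ℝ v x) y) := by
  simp only [phi_tilt]
  exact (h.int3 hk ha hb).comp_sub_right v

theorem integrable_inner (hV : Pot V) (v : E) : Integrable fun x : E => inner ℝ v x * Real.exp (-V x) := by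
  have h3 : Integrable fun x : E => (‖v‖ ^ 2) * Real.exp (-V x) + (‖x‖ ^ 2 * Real.exp (-V x)) :=
    (hV.int0.const_mul _).add hV.int2
  have hm : Measurable fun x : E => (inner ℝ v x : ℝ) := (continuous_const.inner continuous_id).measurable
  refine h3.mono' (hm.mul (Real.measurable_exp.comp hV.meas.neg)).aestronglyMeasurable
    (Eventually.of_forall fun x => ?_)
  rw [Real.norm_eq_abs, abs_mul, abs_of_pos (Real.exp_pos _), ← add_mul]
  refine mul_le_mul_of_nonneg_right ?_ (Real.exp_pos _).le
  have h4 := abs_real_inner_le_norm v x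
  nlinarith [sq_nonneg (‖v‖ - ‖x‖), norm_nonneg v, norm_nonneg x, sq_nonneg (‖v‖), sq_nonneg (‖x‖)]

theorem J_tilt (ha : 0 < a) (hb : 0 < b) (h : Qg a b c) (hV : Pot V) (v : E)
    (hv : ∫ x : E, inner ℝ v x * Real.exp (-V x) = 0) :
    J k V (fun x => c x + inner ℝ v x) = J k V c := by
  unfold J
  rw [Z_tilt]
  have h1 : (fun x : E => (c x + inner ℝ v x) * Real.exp (-V x)) =
      fun x => c x * Real.exp (-V x) + inner ℝ v x * Real.exp (-V x) := by
    funext x
    ring
  rw [h1, integral_add (h.integrable ha hb hV) (integrable_inner hV v), hv, add_zero]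

/-- the key descent inequality for the mass -/
theorem mass_leN (hk : 0 < k) (ha : 0 < a) (hb : 0 < b) (h : Qg a b c) (hTm : Measurable (T0 k V c))
    (hT1 : ∀ y : E, Integrable fun x : E => Real.exp (k * inner ℝ x y - k * T0 k V c x))
    (hT3 : Integrable fun y : E => Real.exp (-phi k (T0 k V c) y))
    (hVi : Integrable fun x : E => Real.exp (-V x)) (hV1 : ∫ x : E, Real.exp (-V x) = 1) :
    (1 + 1 / k) * Real.log (Z k c) ≤ Real.log (Z k (T0 k V c)) := by
  have hZ := h.Z_pos hk ha hb
  have hZ' : 0 < Z k (T0 k V c) := integral_exp_pos hT3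
  -- the function `t`
  have hkT : ∀ x, k * T0 k V c x = V x + Q k c x := fun x => by
    unfold T0
    field_simp
  have hMV : Measurable V := by
    have h1 : V = fun x => k * T0 k V c x - Q k c x := by
      ext x
      rw [hkT]
      ring
    rw [h1]
    exact (hTm.const_mul k).sub (measurable_Q h.meas)
  have hFm : Measurable fun p : E × E => Real.exp (k * inner ℝ p.1 p.2 - k * T0 k V c p.1 - (k + 1) * phi k c p.2) := by
    have : Measurable fun p : E × E => (inner ℝ p.1 p.2 : ℝ) := (continuous_fst.inner continuous_snd).measurable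
    exact Real.measurable_exp.comp (((this.const_mul k).sub ((hTm.comp measurable_fst).const_mul k)).sub
      (((measurable_phi h.meas).comp measurable_snd).const_mul (k + 1)))
  have hinner : ∀ x : E, ∫ y : E, Real.exp (k * inner ℝ x y - k * T0 k V c x - (k + 1) * phi k c y) = Real.exp (-V x) := by
    intro x
    have h1 : (fun y : E => Real.exp (k * inner ℝ x y - k * T0 k V c x - (k + 1) * phi k c y))
        = fun y : E => Real.exp (k * inner ℝ x y - (k + 1) * phi k c y) * Real.exp (-(k * T0 k V c x)) := by
      ext y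
      rw [← Real.exp_add]
      congr 1
      ring
    rw [h1, integral_mul_const, ← exp_Q (h.int2 hk ha hb x), ← Real.exp_add, hkT]
    congr 1
    ring
  have hFi : Integrable (fun p : E × E => Real.exp (k * inner ℝ p.1 p.2 - k * T0 k V c p.1 - (k + 1) * phi k c p.2))
      ((volume : Measure E).prod volume) := by
    rw [integrable_prod_iff hFm.aestronglyMeasurable]
    refine ⟨Eventually.of_forall fun x => ?_, ?_⟩
    · have := (h.int2 hk ha hb x).mul_const (Real.exp (-(k * T0 k V c x)))
      refine this.congr (Eventually.of_forall fun y => ?_)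
      simp only
      rw [← Real.exp_add]
      congr 1
      ring
    · refine hVi.congr (Eventually.of_forall fun x => ?_)
      simp only [Real.norm_eq_abs, abs_of_pos (Real.exp_pos _)]
      exact (hinner x).symm
  have hswap := integral_integral_swap
    (f := fun (x y : E) => Real.exp (k * inner ℝ x y - k * T0 k V c x - (k + 1) * phi k c y)) hFi
  simp only [hinner] at hswap
  rw [hV1] at hswap
  have hy : ∀ y : E, ∫ x : E, Real.exp (k * inner ℝ x y - k * T0 k V c x - (k + 1) * phi k c y)
      = Real.exp (-phi k c y) * Real.exp (k * (phi k (T0 k V c) y - phi k c y)) := by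
    intro y
    have h1 : (fun x : E => Real.exp (k * inner ℝ x y - k * T0 k V c x - (k + 1) * phi k c y))
        = fun x : E => Real.exp (k * inner ℝ x y - k * T0 k V c x) * Real.exp (-((k + 1) * phi k c y)) := by
      ext x
      rw [← Real.exp_add]
      congr 1
    rw [h1, integral_mul_const, ← exp_phi hk (hT1 y), ← Real.exp_add, ← Real.exp_add]
    congr 1
    ring
  have hti : Integrable fun y : E => Real.exp (-phi k c y) * Real.exp (k * (phi k (T0 k V c) y - phi k c y)) := by
    refine hFi.integral_prod_right.congr (Eventually.of_forall fun y => ?_)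
    exact hy y
  have ht1 : ∫ y : E, Real.exp (-phi k c y) * Real.exp (k * (phi k (T0 k V c) y - phi k c y)) = 1 := by
    rw [hswap]
    congr 1
    ext y
    exact (hy y).symm
  -- pointwise inequality
  have hpt : ∀ y : E, Real.exp ((1 / k) * Real.log (Z k c)) * ((1 + 1 / k) * Real.exp (-phi k c y)
      - (Z k c / k) * (Real.exp (-phi k c y) * Real.exp (k * (phi k (T0 k V c) y - phi k c y))))
      ≤ Real.exp (-phi k (T0 k V c) y) := by
    intro y
    set t := Real.exp (k * (phi k (T0 k V c) y - phi k c y)) with ht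
    have htp : 0 < t := Real.exp_pos _
    have h1 : Real.exp (-phi k (T0 k V c) y) = Real.exp ((1 / k) * Real.log (Z k c)) * (Real.exp (-phi k c y)
        * Real.exp (-(1 / k) * Real.log (t * Z k c))) := by
      rw [Real.log_mul htp.ne' hZ.ne', ht, Real.log_exp, ← Real.exp_add, ← Real.exp_add]
      congr 1
      field_simp
      ring
    rw [h1]
    refine mul_le_mul_of_nonneg_left ?_ (Real.exp_pos _).le
    have h2 : 1 - (1 / k) * (t * Z k c - 1) ≤ Real.exp (-(1 / k) * Real.log (t * Z k c)) := by
      have h3 := Real.add_one_le_exp (-(1 / k) * Real.log (t * Z k c))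
      have h4 := Real.log_le_sub_one_of_pos (mul_pos htp hZ)
      have h5 := mul_le_mul_of_nonneg_left h4 (by positivity : 0 ≤ 1 / k)
      linarith
    calc (1 + 1 / k) * Real.exp (-phi k c y) - Z k c / k * (Real.exp (-phi k c y) * t)
        = Real.exp (-phi k c y) * (1 - (1 / k) * (t * Z k c - 1)) := by ring
      _ ≤ _ := mul_le_mul_of_nonneg_left h2 (Real.exp_pos _).le
  have hint := integral_mono ((((h.int3 hk ha hb).const_mul (1 + 1 / k)).sub (hti.const_mul (Z k c / k))).const_mul
    (Real.exp ((1 / k) * Real.log (Z k c)))) hT3 hpt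
  have hlhs : ∫ y : E, Real.exp ((1 / k) * Real.log (Z k c)) * ((1 + 1 / k) * Real.exp (-phi k c y)
      - (Z k c / k) * (Real.exp (-phi k c y) * Real.exp (k * (phi k (T0 k V c) y - phi k c y))))
      = Real.exp ((1 / k) * Real.log (Z k c)) * Z k c := by
    rw [integral_const_mul, integral_sub ((h.int3 hk ha hb).const_mul _) (hti.const_mul _), integral_const_mul,
      integral_const_mul, ht1]
    unfold Z
    ring
  have hfin : Real.exp ((1 / k) * Real.log (Z k c)) * Z k c ≤ Z k (T0 k V c) := by
    rw [← hlhs]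
    exact hint
  have := Real.log_le_log (by positivity) hfin
  rw [Real.log_mul (Real.exp_pos _).ne' hZ.ne', Real.log_exp] at this
  linarith

/-- **descent** -/
theorem descentT (hk : 0 < k) (ha : 0 < a) (hb : 0 < b) (h : Qg a b c) (hTm : Measurable (T0 k V c))
    (hT1 : ∀ y : E, Integrable fun x : E => Real.exp (k * inner ℝ x y - k * T0 k V c x))
    (hT3 : Integrable fun y : E => Real.exp (-phi k (T0 k V c) y))
    (hTi : Integrable fun x : E => T0 k V c x * Real.exp (-V x))
    (hVi : Integrable fun x : E => Real.exp (-V x)) (hV1 : ∫ x : E, Real.exp (-V x) = 1)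
    (hVV : Integrable fun x : E => V x * Real.exp (-V x))
    (hV2 : Integrable fun x : E => ‖x‖ ^ 2 * Real.exp (-V x)) :
    J k V (T0 k V c) ≤ J k V c - KL k V c / k := by
  have hkT : ∀ x, k * T0 k V c x = V x + Q k c x := fun x => by
    unfold T0
    field_simp
  have hMV : Measurable V := by
    have h1 : V = fun x => k * T0 k V c x - Q k c x := by
      ext x
      rw [hkT]
      ring
    rw [h1]
    exact (hTm.const_mul k).sub (measurable_Q h.meas)
  have key : ∀ f : E → ℝ, (∀ x, f 0 + a / 2 * ‖x‖ ^ 2 ≤ f x) → (∀ x, f x ≤ f 0 + b / 2 * ‖x‖ ^ 2) → Measurable f →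
      Integrable fun x : E => f x * Real.exp (-V x) := by
    intro f h1 h2 hf
    have h3 : Integrable fun x : E => |f 0| * Real.exp (-V x) + (|b| / 2) * (‖x‖ ^ 2 * Real.exp (-V x)) :=
      (hVi.const_mul _).add (hV2.const_mul _)
    refine h3.mono' (hf.mul (Real.measurable_exp.comp hMV.neg)).aestronglyMeasurable (Eventually.of_forall fun x => ?_)
    rw [Real.norm_eq_abs, abs_mul, abs_of_pos (Real.exp_pos _)]
    have h4 : |f x| ≤ |f 0| + |b| / 2 * ‖x‖ ^ 2 := by
      have h5 := h1 x
      have h6 := h2 x
      have h7 : 0 ≤ a / 2 * ‖x‖ ^ 2 := by positivity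
      have h8 : b / 2 * ‖x‖ ^ 2 ≤ |b| / 2 * ‖x‖ ^ 2 := by
        have := le_abs_self b
        gcongr
      have h9 := neg_abs_le (f 0)
      have h10 := le_abs_self (f 0)
      rw [abs_le]
      constructor <;> [skip; linarith]
      have h11 : 0 ≤ |b| / 2 * ‖x‖ ^ 2 := by positivity
      linarith
    calc |f x| * Real.exp (-V x) ≤ (|f 0| + |b| / 2 * ‖x‖ ^ 2) * Real.exp (-V x) :=
          mul_le_mul_of_nonneg_right h4 (Real.exp_pos _).le
      _ = _ := by ring
  have hci := key c h.lo h.hi h.meas
  have hQi : Integrable fun x : E => Q k c x * Real.exp (-V x) := by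
    refine ((hTi.const_mul k).sub hVV).congr (Eventually.of_forall fun x => ?_)
    simp only [Pi.sub_apply]
    rw [← mul_assoc, hkT]
    ring
  have e1 : ∫ x : E, T0 k V c x * Real.exp (-V x)
      = (1 / k) * ((∫ x : E, V x * Real.exp (-V x)) + ∫ x : E, Q k c x * Real.exp (-V x)) := by
    rw [← integral_add hVV hQi, ← integral_const_mul]
    congr 1
    ext x
    unfold T0
    field_simp
  have e2 : KL k V c = k * (∫ x : E, c x * Real.exp (-V x)) - (∫ x : E, Q k c x * Real.exp (-V x))
      + Real.log (Z k c) - ∫ x : E, V x * Real.exp (-V x) := by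
    unfold KL
    have h1 : (fun x : E => (W k c x - V x) * Real.exp (-V x)) = fun x => ((k * (c x * Real.exp (-V x))
        - Q k c x * Real.exp (-V x)) + Real.log (Z k c) * Real.exp (-V x)) - V x * Real.exp (-V x) := by
      ext x
      unfold W
      ring
    have i1 : Integrable fun x : E => k * (c x * Real.exp (-V x)) := hci.const_mul k
    have i2 : Integrable fun x : E => k * (c x * Real.exp (-V x)) - Q k c x * Real.exp (-V x) := i1.sub hQi
    have i3 : Integrable fun x : E => Real.log (Z k c) * Real.exp (-V x) := hVi.const_mul _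
    have i4 : Integrable fun x : E => k * (c x * Real.exp (-V x)) - Q k c x * Real.exp (-V x)
      + Real.log (Z k c) * Real.exp (-V x) := i2.add i3
    rw [h1, integral_sub i4 hVV, integral_add i2 i3, integral_sub i1 hQi,
      integral_const_mul, integral_const_mul, hV1, mul_one]
  have h3 := mass_leN hk ha hb h hTm hT1 hT3 hVi hV1
  unfold J
  rw [e1, e2]
  have e3 : (k * (∫ x : E, c x * Real.exp (-V x)) - (∫ x : E, Q k c x * Real.exp (-V x))
      + Real.log (Z k c) - ∫ x : E, V x * Real.exp (-V x)) / k = (∫ x : E, c x * Real.exp (-V x))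
      - (1 / k) * (∫ x : E, Q k c x * Real.exp (-V x)) + (1 / k) * Real.log (Z k c)
      - (1 / k) * ∫ x : E, V x * Real.exp (-V x) := by
    field_simp
  rw [e3]
  nlinarith [h3]


/-- one step of the normalised map -/
theorem descentN (hk : 0 < k) (ha : 0 < a) (hb : 0 < b) (hV : Pot V)
    (hcen : ∀ v : E, ∫ x : E, inner ℝ v x * Real.exp (-V x) = 0) (h : Qg a b c) {c' : E → ℝ}
    (hT : Qg a b c') (hc' : ∃ (s : ℝ) (v : E), ∀ x, T0 k V c x = c' x + s + inner ℝ v x) :
    J k V c' ≤ J k V c - KL k V c / k := by
  obtain ⟨s, v, hsv⟩ := hc'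
  have hs : Qg a b (fun x => c' x + s) := hT.add_const s
  have e : T0 k V c = fun x => (fun x => c' x + s) x + inner ℝ v x := funext hsv
  have hTm : Measurable (T0 k V c) := by
    rw [e]
    exact hs.meas.add (continuous_const.inner continuous_id).measurable
  have hT1 : ∀ y : E, Integrable fun x : E => Real.exp (k * inner ℝ x y - k * T0 k V c x) := by
    intro y
    rw [e]
    exact int1_tilt hk ha hs v y
  have hT3 : Integrable fun y : E => Real.exp (-phi k (T0 k V c) y) := by
    rw [e]
    exact int3_tilt hk ha hb hs v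
  have hTi : Integrable fun x : E => T0 k V c x * Real.exp (-V x) := by
    rw [e]
    refine ((hs.integrable ha hb hV).add (integrable_inner hV v)).congr (Eventually.of_forall fun x => ?_)
    simp only [Pi.add_apply]
    ring
  have h1 := descentT hk ha hb h hTm hT1 hT3 hTi hV.int0 hV.one hV.intV hV.int2
  have h2 : J k V (T0 k V c) = J k V c' := by
    rw [e, J_tilt ha hb hs hV v (hcen v)]
    exact J_add_const hk s hT ha hb hV.int0 hV.one (hT.integrable ha hb hV)
  rwa [h2] at h1

/-- **small relative entropy along the iteration**, for any invariant class `P` and any normalisation `N`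
of the level-`k` map by affine functions -/
theorem exists_KL_leN (hk : 0 < k) (ha : 0 < a) (hb : 0 < b) (hV : Pot V)
    (hcen : ∀ v : E, ∫ x : E, inner ℝ v x * Real.exp (-V x) = 0)
    (P : (E → ℝ) → Prop) (N : (E → ℝ) → E → ℝ) (c₀ : E → ℝ) (h0 : P c₀)
    (hN : ∀ c, P c → ∃ (s : ℝ) (v : E), ∀ x, T0 k V c x = N c x + s + inner ℝ v x)
    (hPN : ∀ c, P c → P (N c)) (hPG : ∀ c, P c → Qg a b c) {ε : ℝ} (hε : 0 < ε) :
    ∃ c, P c ∧ KL k V c ≤ ε := by
  by_contra hcon
  simp only [not_exists, not_and, not_le] at hcon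
  have hPi : ∀ i : ℕ, P (N^[i] c₀) := by
    intro i
    induction i with
    | zero => exact h0
    | succ i ih =>
      rw [Function.iterate_succ_apply']
      exact hPN _ ih
  have hJi : ∀ i : ℕ, J k V (N^[i] c₀) ≤ J k V c₀ - i * (ε / k) := by
    intro i
    induction i with
    | zero => simp
    | succ i ih =>
      rw [Function.iterate_succ_apply']
      have h1 := descentN hk ha hb hV hcen (hPG _ (hPi i)) (hPG _ (hPN _ (hPi i))) (hN _ (hPi i))
      have h2 := (hcon _ (hPi i)).le
      have h3 : ε / k ≤ KL k V (N^[i] c₀) / k := by gcongr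
      push_cast
      linarith
  set m := gc E k b - Real.log (∫ y : E, Real.exp (-(1 * (1 / b / 2 * ‖y‖ ^ 2)))) with hm
  obtain ⟨i, hi⟩ := exists_nat_gt ((J k V c₀ - m) / (ε / k))
  have h1 := (hPG _ (hPi i)).J_ge hk ha hb hV.int0 hV.one ((hPG _ (hPi i)).integrable ha hb hV)
  rw [← hm] at h1
  have h2 := hJi i
  rw [div_lt_iff₀ (by positivity)] at hi
  linarith

end Vale.Agent.P254.NS.Desc541
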