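import Vale.Agent.P227.M.MM.Desc290
import Vale.Agent.P254.NS.Desc541
import Vale.Agent.P254.MC.Defs
import Vale.Agent.P254.X.N1.Ifc

/-! # P254/NS: the level-`k` descent statement for a centred potential, no evenness (helper541, after
helper290's `MM/Desc290.lean`); both interfaces `MC.StmtDescc` and `X.N1.StmtDescC`. -/

open MeasureTheory Filter
open scoped Topology RealInnerProductSpace

namespace Vale.Agent.P254.NS.DescC541

open Vale.Agent.P227.M Vale.Agent.P227.M.MM

variable {n : ℕ}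

theorem qg_of_reg {c : E n → ℝ} {a b : ℝ} (h : Reg c a b) (h0 : fderiv ℝ c 0 = 0) : LK.Dsc.Qg a b c where
  meas := h.smooth.continuous.measurable
  lo := fun x => by
    have := lower_quad h.C2 h.lower x
    rw [h0] at this
    simpa using this
  hi := fun x => by
    have := D290.upper_quad h.C2 h.upper x
    rw [h0] at this
    simpa using this

theorem pot_of_reg {V : E n → ℝ} {c C : ℝ} (hR : Reg V c C) :
    LK.Dsc.Pot (fun x => V x + Real.log (∫ x, Real.exp (-V x))) := by
  set Z := ∫ x, Real.exp (-V x) with hZ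
  have hZp : 0 < Z := hR.Z_pos
  have e1 : ∀ x, Real.exp (-(V x + Real.log Z)) = Real.exp (-V x) * Z⁻¹ := fun x => by
    rw [neg_add, Real.exp_add, Real.exp_neg (Real.log Z), Real.exp_log hZp]
  have hi := hR.integrable_exp
  refine ⟨(hR.cont.measurable).add_const _, ?_, ?_, ?_, ?_⟩
  · simp only [e1]
    exact hi.mul_const _
  · simp only [e1]
    rw [integral_mul_const, ← hZ, mul_inv_cancel₀ hZp.ne']
  · simp only [e1]
    have h1 := (hR.integrable_gr (hR.gr.add (Gr.const (Real.log Z)))).mul_const Z⁻¹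
    refine h1.congr (Eventually.of_forall fun x => ?_)
    simp only
    ring
  · simp only [e1]
    have h1 := (hR.integrable_gr (Gr.norm.pow 2)).mul_const Z⁻¹
    refine h1.congr (Eventually.of_forall fun x => ?_)
    simp only
    ring

theorem gr_of_reg {c : E n → ℝ} {a b k : ℝ} (hk : 0 < k) (ha : 0 < a) (h : Reg c a b) (h0 : fderiv ℝ c 0 = 0) :
    LL.Gr (fun x => k * c x) (k * a / 2) (-(k * c 0)) where
  cont := continuous_const.mul h.smooth.continuous
  pos := by positivity
  low := fun x => by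
    have := mul_le_mul_of_nonneg_left ((qg_of_reg h h0).lo x) hk.le
    linarith

theorem centred' {V : E n → ℝ} {c C : ℝ} (hR : Reg V c C)
    (hcen : ∀ i : Fin n, (∫ x : E n, x i * Real.exp (-V x)) = 0) (v : E n) :
    ∫ x : E n, inner ℝ v x * Real.exp (-(V x + Real.log (∫ x, Real.exp (-V x)))) = 0 := by
  set Z := ∫ x, Real.exp (-V x) with hZ
  have e1 : (fun x : E n => inner ℝ v x * Real.exp (-(V x + Real.log Z))) =
      fun x => ∑ i, (v i * Real.exp (-Real.log Z)) * (x i * Real.exp (-V x)) := by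
    funext x
    have h1 : inner ℝ v x = ∑ i, v i * x i := by
      simp [PiLp.inner_apply, mul_comm]
    rw [h1, neg_add, Real.exp_add, Finset.sum_mul]
    exact Finset.sum_congr rfl fun i _ => by ring
  rw [e1, integral_finsetSum]
  · refine Finset.sum_eq_zero fun i _ => ?_
    rw [integral_const_mul, hcen i, mul_zero]
  · intro i _
    exact (hR.integrable_gr (Gr.coord i)).const_mul _

/-- descent along a sequence normalised by affine functions -/
theorem desc_core (hn : 0 < n) {V : E n → ℝ} {c₀ C₀ k : ℝ} (hV : Reg V c₀ C₀)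
    (hcen : ∀ i : Fin n, (∫ x : E n, x i * Real.exp (-V x)) = 0) (hk1 : 1 ≤ k) (it : ℕ → E n → ℝ)
    (hreg : ∀ i, Reg (it i) (c₀ * (k + 1) / k) (C₀ * (k + 1) / k)) (hgrad : ∀ i, fderiv ℝ (it i) 0 = 0)
    (hstep : ∀ i, it (i + 1) = fun x => TK k V (it i) x - fderiv ℝ (TK k V (it i)) 0 x)
    (hphi : ∀ i, Reg (phiK k (it i)) (k / ((k + 1) * C₀)) (k / ((k + 1) * c₀))) {ε : ℝ} (hε : 0 < ε) :
    ∃ i : ℕ, ∀ F : E n → ℝ, LipschitzWith 1 F → (∀ x, |F x| ≤ 1) →
    |(∫ y, F (gradient (phiK k (it i)) y) * Real.exp (-phiK k (it i) y)) /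
        (∫ y, Real.exp (-phiK k (it i) y))
      - (∫ x, F x * Real.exp (-V x)) / (∫ x, Real.exp (-V x))| ≤ Real.sqrt (n / (c₀ * k)) + ε := by
  have hk : 0 < k := by linarith
  have hc₀ : 0 < c₀ := hV.c_pos
  have hC₀ : 0 < C₀ := hc₀.trans_le (nice_le hn hV)
  set s₀ := Real.log (∫ x, Real.exp (-V x)) with hs₀
  have hZV : 0 < ∫ x, Real.exp (-V x) := hV.Z_pos
  set V' : E n → ℝ := fun x => V x + s₀ with hV'
  have hPot : LK.Dsc.Pot V' := pot_of_reg hV
  have ha : 0 < c₀ * (k + 1) / k := by positivity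
  have hb : 0 < C₀ * (k + 1) / k := by positivity
  set η := ε / 2 with hη
  have hηp : 0 < η := by positivity
  have hcen' : ∀ v : E n, ∫ x : E n, inner ℝ v x * Real.exp (-V' x) = 0 := centred' hV hcen
  obtain ⟨c, ⟨i, rfl⟩, hKL⟩ := Desc541.exists_KL_leN (V := V') hk ha hb hPot hcen'
    (fun c => ∃ i, c = it i) (fun c x => TK k V c x - fderiv ℝ (TK k V c) 0 x) (it 0) ⟨0, rfl⟩
    (by
      rintro c ⟨i, rfl⟩
      refine ⟨s₀ / k + (V 0 + QK k (it i) 0) / k,
        (InnerProductSpace.toDual ℝ (E n)).symm (fderiv ℝ (TK k V (it i)) 0), fun x => ?_⟩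
      rw [InnerProductSpace.toDual_symm_apply]
      have e1 : LK.Dsc.T0 k V' (it i) x = (V x + s₀ + QK k (it i) x) / k := rfl
      have e2 : TK k V (it i) x = (V x + QK k (it i) x) / k - (V 0 + QK k (it i) 0) / k := rfl
      rw [e1, e2]
      ring)
    (by
      rintro c ⟨i, rfl⟩
      exact ⟨i + 1, (hstep i).symm⟩)
    (by
      rintro c ⟨i, rfl⟩
      exact qg_of_reg (hreg i) (hgrad i))
    (ε := η ^ 2) (by positivity)
  refine ⟨i, fun F hF hF1 => ?_⟩
  set c := it i with hc
  have hN := hreg i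
  have hQ := qg_of_reg hN (hgrad i)
  have hGr := gr_of_reg hk ha hN (hgrad i)
  have hW1 := hQ.integral_W hk ha hb
  have hWi := hQ.integrable_exp_neg_W hk ha hb
  have hφi : Integrable fun y : E n => Real.exp (-phiK k c y) := hQ.int3 hk ha hb
  have hZp : 0 < ∫ y : E n, Real.exp (-phiK k c y) := hQ.Z_pos hk ha hb
  -- integrability of the relative entropy density
  have hN' := hreg (i + 1)
  have hQgr : Gr (LK.Dsc.Q k c) := by
    have h1 : LK.Dsc.Q k c = fun x => ((k * (it (i + 1) x + fderiv ℝ (TK k V c) 0 x) - V x)) + (V 0 + QK k c 0) := by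
      funext x
      have h2 : it (i + 1) x = (V x + QK k c x) / k - (V 0 + QK k c 0) / k - fderiv ℝ (TK k V c) 0 x := by
        rw [hstep i]
        rfl
      rw [h2]
      have h3 : LK.Dsc.Q k c x = QK k c x := rfl
      rw [h3]
      field_simp
      ring
    rw [h1]
    have hl : Gr (fun x : E n => fderiv ℝ (TK k V c) 0 x) := by
      have e : (fun x : E n => fderiv ℝ (TK k V c) 0 x) = fun x => ∑ j, x j * pd j (TK k V c) 0 := by
        funext x
        exact fderiv_eq_sum _ _ _
      rw [e]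
      exact Gr.sum _ fun j _ => (Gr.coord j).mul (Gr.const _)
    exact (((hN'.gr.add hl).const_mul k).sub hV.gr).add (Gr.const _)
  have eV' : ∀ x, Real.exp (-V' x) = Real.exp (-V x) * (∫ x, Real.exp (-V x))⁻¹ := fun x => by
    rw [hV']
    simp only
    rw [neg_add, Real.exp_add, Real.exp_neg s₀, hs₀, Real.exp_log hZV]
  have hKi : Integrable (fun x => (LK.Dsc.W k c x - V' x) * Real.exp (-V' x)) := by
    have h1 : Gr (fun x => ((k * c x - LK.Dsc.Q k c x) + Real.log (LK.Dsc.Z k c)) - (V x + s₀)) :=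
      (((hN.gr.const_mul k).sub hQgr).add (Gr.const _)).sub (hV.gr.add (Gr.const _))
    have h2 := (hV.integrable_gr h1).mul_const (∫ x, Real.exp (-V x))⁻¹
    refine h2.congr (Eventually.of_forall fun x => ?_)
    simp only
    rw [eV']
    unfold LK.Dsc.W
    ring
  -- total variation
  have hTV := LK.abs_sub_le_of_KL (μ := (volume : Measure (E n))) (V := V') (W := LK.Dsc.W k c) (F := F) (M := 1) (η := η)
    hηp hPot.int0 hWi hPot.one hW1 hKi hKL hF.continuous.aestronglyMeasurable zero_le_one hF1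
  -- the law
  have hs : 0 < Real.sqrt (n / (c₀ * k)) := Real.sqrt_pos.2 (by positivity)
  have hlaw := LK.Law.law (W := fun x => k * c x) (φ := phiK k c) hGr hk (fun y => rfl) hφi
    (σ := k / ((k + 1) * c₀) / k) (fun y v => D290.c2_le hk hGr (fun y v => (hphi i).upper y v) y v)
    (F := F) (B := 1) (L := 1) zero_le_one
    (fun x x' => by simpa [dist_eq_norm, Real.dist_eq] using hF.dist_le_mul x x') hF1 hs (by
      rw [Real.sq_sqrt (by positivity)]
      simp only [finrank_euclideanSpace, Fintype.card_fin]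
      have : (k / ((k + 1) * c₀) / k) ≤ 1 / (c₀ * k) := by
        rw [div_div, div_le_div_iff₀ (by positivity) (by positivity)]
        nlinarith
      calc (n : ℝ) * (k / ((k + 1) * c₀) / k) ≤ n * (1 / (c₀ * k)) := by gcongr
        _ = _ := by ring)
  rw [← D290.grad_phi_fun hk hGr] at hlaw
  set Zφ := ∫ y : E n, Real.exp (-phiK k c y) with hZφ
  have eW : ∀ x, Real.exp (-(k * c x)) * LL.Z (fun y => (k + 1) * phiK k c y) (k • x)
      = Real.exp (-LK.Dsc.W k c x) * Zφ := by
    intro x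
    have hi2 : Integrable fun y : E n => Real.exp (inner ℝ y (k • x) - (k + 1) * phiK k c y) := by
      refine (hQ.int2 hk ha hb x).congr (Eventually.of_forall fun y => ?_)
      simp only [real_inner_smul_right, real_inner_comm, D290.phi_eq]
      rfl
    have h1 : 0 < LL.Z (fun y => (k + 1) * phiK k c y) (k • x) := integral_exp_pos hi2
    have h2 : Real.exp (LK.Dsc.Q k c x) = LL.Z (fun y => (k + 1) * phiK k c y) (k • x) := by
      have : LK.Dsc.Q k c x = Real.log (LL.Z (fun y => (k + 1) * phiK k c y) (k • x)) := rfl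
      rw [this, Real.exp_log h1]
    have h3 : LK.Dsc.Z k c = Zφ := rfl
    unfold LK.Dsc.W
    rw [← h2, h3, neg_add, Real.exp_add, Real.exp_neg (Real.log Zφ), Real.exp_log hZp, neg_sub, ← Real.exp_add]
    rw [mul_assoc, inv_mul_cancel₀ hZp.ne', mul_one]
    congr 1
    ring
  have e3 : (∫ x, F x * (Real.exp (-(k * c x)) * LL.Z (fun y => (k + 1) * phiK k c y) (k • x)))
      = (∫ x, F x * Real.exp (-LK.Dsc.W k c x)) * Zφ := by
    rw [← integral_mul_const]
    congr 1
    funext x
    rw [eW]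
    ring
  rw [e3, one_mul] at hlaw
  have e4 : (∫ x, F x * Real.exp (-V' x)) = (∫ x, F x * Real.exp (-V x)) / (∫ x, Real.exp (-V x)) := by
    rw [div_eq_mul_inv, ← integral_mul_const]
    congr 1
    funext x
    rw [eV']
    ring
  rw [e4] at hTV
  have h5 : |(∫ y, F (gradient (phiK k c) y) * Real.exp (-phiK k c y)) / Zφ - ∫ x, F x * Real.exp (-LK.Dsc.W k c x)|
      ≤ Real.sqrt (n / (c₀ * k)) := by
    have h6 : (∫ y, F (gradient (phiK k c) y) * Real.exp (-phiK k c y)) / Zφ - ∫ x, F x * Real.exp (-LK.Dsc.W k c x)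
        = ((∫ y, F (gradient (phiK k c) y) * Real.exp (-phiK k c y)) - (∫ x, F x * Real.exp (-LK.Dsc.W k c x)) * Zφ) / Zφ := by
      field_simp
    rw [h6, abs_div, abs_of_pos hZp, div_le_iff₀ hZp]
    exact hlaw
  calc _ ≤ |(∫ y, F (gradient (phiK k c) y) * Real.exp (-phiK k c y)) / Zφ - ∫ x, F x * Real.exp (-LK.Dsc.W k c x)|
        + |(∫ x, F x * Real.exp (-LK.Dsc.W k c x)) - (∫ x, F x * Real.exp (-V x)) / (∫ x, Real.exp (-V x))| :=
        abs_sub_le _ _ _
    _ ≤ Real.sqrt (n / (c₀ * k)) + 2 * 1 * η := add_le_add h5 hTV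
    _ = _ := by rw [hη]; ring



theorem stmtDescc : MC.StmtDescc := by
  intro n hn V c₀ C₀ m k hV hcen _ hk1 hcls hphi ε hε
  exact desc_core hn hV hcen hk1 (MC.itKc k c₀ V) (fun i => (hcls i).reg) (fun i => (hcls i).grad)
    (fun i => rfl) hphi hε

theorem stmtDescC : X.N1.StmtDescC := by
  intro n hn V c₀ C₀ m k hV hcen _ hk1 hcls hphi ε hε
  exact desc_core hn hV hcen hk1 (X.N1.itKc k c₀ V) (fun i => (hcls i).reg) (fun i => (hcls i).grad)
    (fun i => rfl) hphi hε

end Vale.Agent.P254.NS.DescC541
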