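import Mathlib

/-!
# P254 near-sharp, end of (S2): Bessel, the symmetric third moment, linearisation (helper655)

`t` = the random matrix `τ`, `x` = the random vector.  From the quadratic inequality (I)
`2 ∑ wᵢ wⱼ Var tᵢⱼ ≤ E tr (W t W t) - E tr (W t W t B t)` for all `w ≥ 0` we deduce
`∑ᵢⱼ √(cᵢ cⱼ) ∑ₖ Tᵢⱼₖ² ≤ ∑ cᵢ · 4 (y(bᵢ) - 1)`, `y(b) = 4 / (1 + √(1 + 8 b))`.
-/

open MeasureTheory Finset

namespace Vale.Agent.P254.NS

variable {n : ℕ} {Ω : Type*} [MeasurableSpace Ω]

/-- `y (b)` -/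
noncomputable def yy (b : ℝ) : ℝ := 4 / (1 + Real.sqrt (1 + 8 * b))

theorem yy_facts {b : ℝ} (hb : 0 ≤ b) :
    0 < yy b ∧ 1 + 2 * (b * yy b) = Real.sqrt (1 + 8 * b) ∧
      1 + b * yy b ^ 2 - 2 * (b * yy b) = (1 + 2 * (b * yy b)) * (yy b - 1) := by
  set s := Real.sqrt (1 + 8 * b) with hs
  have hs0 : 0 ≤ s := Real.sqrt_nonneg _
  have hs2 : s ^ 2 = 1 + 8 * b := Real.sq_sqrt (by linarith)
  have hy : yy b = 4 / (1 + s) := rfl
  have h1s : (0 : ℝ) < 1 + s := by linarith
  have hb' : b = (s ^ 2 - 1) / 8 := by linarith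
  refine ⟨by rw [hy]; positivity, ?_, ?_⟩
  · rw [hy, hb']
    field_simp
    ring
  · rw [hy, hb']
    field_simp
    ring

/-- Bessel: `∑ₖ (E xₖ f)² ≤ Var f` for orthonormal centred `xₖ`. -/
theorem bessel (μ : Measure Ω) [IsProbabilityMeasure μ] (x : Ω → Fin n → ℝ) (f : Ω → ℝ)
    (hx : ∀ i, MemLp (fun ω => x ω i) 2 μ) (hf : MemLp f 2 μ)
    (hx0 : ∀ i, ∫ ω, x ω i ∂μ = 0)
    (hxx : ∀ i j, ∫ ω, x ω i * x ω j ∂μ = if i = j then 1 else 0) :
    ∑ k, (∫ ω, x ω k * f ω ∂μ) ^ 2 ≤ ∫ ω, f ω ^ 2 ∂μ - (∫ ω, f ω ∂μ) ^ 2 := by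
  classical
  set a : Fin n → ℝ := fun k => ∫ ω, x ω k * f ω ∂μ with ha
  set m : ℝ := ∫ ω, f ω ∂μ with hm
  have ifi : Integrable f μ := hf.integrable (by norm_num)
  have ixi : ∀ i, Integrable (fun ω => x ω i) μ := fun i => (hx i).integrable (by norm_num)
  have iff : Integrable (fun ω => f ω ^ 2) μ := hf.integrable_sq
  have ixf : ∀ i, Integrable (fun ω => x ω i * f ω) μ := fun i => (hx i).integrable_mul hf
  have ixx : ∀ i j, Integrable (fun ω => x ω i * x ω j) μ := fun i j => (hx i).integrable_mul (hx j)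
  have h0 : 0 ≤ ∫ ω, (f ω - m - ∑ k, a k * x ω k) ^ 2 ∂μ := integral_nonneg fun ω => sq_nonneg _
  have e : ∀ ω, (f ω - m - ∑ k, a k * x ω k) ^ 2 =
      f ω ^ 2 + m ^ 2 - 2 * m * f ω + (∑ i, ∑ j, a i * a j * (x ω i * x ω j))
        - 2 * (∑ k, a k * (x ω k * f ω)) + 2 * m * ∑ k, a k * x ω k := by
    intro ω
    have e1 : (∑ k, a k * x ω k) ^ 2 = ∑ i, ∑ j, a i * a j * (x ω i * x ω j) := by
      rw [sq, Finset.sum_mul_sum]
      refine Finset.sum_congr rfl fun i _ => Finset.sum_congr rfl fun j _ => by ring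
    have e2 : ∑ k, a k * (x ω k * f ω) = (∑ k, a k * x ω k) * f ω := by
      rw [Finset.sum_mul]
      exact Finset.sum_congr rfl fun k _ => by ring
    rw [← e1, e2]; ring
  have iS : Integrable (fun ω => ∑ i, ∑ j, a i * a j * (x ω i * x ω j)) μ :=
    integrable_finsetSum _ fun i _ => integrable_finsetSum _ fun j _ => (ixx i j).const_mul _
  have iT : Integrable (fun ω => ∑ k, a k * (x ω k * f ω)) μ :=
    integrable_finsetSum _ fun i _ => (ixf i).const_mul _
  have iU : Integrable (fun ω => ∑ k, a k * x ω k) μ :=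
    integrable_finsetSum _ fun i _ => (ixi i).const_mul _
  have eS : ∫ ω, (∑ i, ∑ j, a i * a j * (x ω i * x ω j)) ∂μ = ∑ k, a k ^ 2 := by
    rw [integral_finsetSum _ fun i _ => integrable_finsetSum _ fun j _ => (ixx i j).const_mul _]
    refine Finset.sum_congr rfl fun i _ => ?_
    rw [integral_finsetSum _ fun j _ => (ixx i j).const_mul _]
    simp_rw [integral_const_mul, hxx]
    simp [sq]
  have eT : ∫ ω, (∑ k, a k * (x ω k * f ω)) ∂μ = ∑ k, a k ^ 2 := by
    rw [integral_finsetSum _ fun i _ => (ixf i).const_mul _]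
    refine Finset.sum_congr rfl fun i _ => ?_
    rw [integral_const_mul, sq]
  have eU : ∫ ω, (∑ k, a k * x ω k) ∂μ = 0 := by
    rw [integral_finsetSum _ fun i _ => (ixi i).const_mul _]
    refine Finset.sum_eq_zero fun i _ => ?_
    rw [integral_const_mul, hx0, mul_zero]
  have e3 : ∫ ω, (f ω - m - ∑ k, a k * x ω k) ^ 2 ∂μ =
      ∫ ω, f ω ^ 2 ∂μ - m ^ 2 - ∑ k, a k ^ 2 := by
    simp_rw [e]
    rw [integral_add, integral_sub, integral_add, integral_sub, integral_add, integral_const_mul,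
      integral_const_mul, integral_const_mul, eS, eT, eU]
    · rw [integral_const, probReal_univ, one_smul, ← hm]; ring
    all_goals first
      | exact iff
      | exact integrable_const _
      | exact ifi.const_mul _
      | exact iS
      | exact iT.const_mul _
      | exact iU.const_mul _
      | exact iff.add (integrable_const _)
      | exact (iff.add (integrable_const _)).sub (ifi.const_mul _)
      | exact ((iff.add (integrable_const _)).sub (ifi.const_mul _)).add iS
      | exact (((iff.add (integrable_const _)).sub (ifi.const_mul _)).add iS).sub (iT.const_mul _)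
  rw [e3] at h0
  linarith

/-- the variance matrix -/
noncomputable def vr (μ : Measure Ω) (t : Ω → Fin n → Fin n → ℝ) (i j : Fin n) : ℝ :=
  ∫ ω, t ω i j ^ 2 ∂μ - (∫ ω, t ω i j ∂μ) ^ 2

theorem third_eq (μ : Measure Ω) (x : Ω → Fin n → ℝ) (t : Ω → Fin n → Fin n → ℝ)
    (hsymm : ∀ ω i j, t ω i j = t ω j i)
    (hst : ∀ i j k, ∫ ω, x ω k * x ω i * x ω j ∂μ =
      ∫ ω, t ω k i * x ω j ∂μ + ∫ ω, t ω k j * x ω i ∂μ) (i j k : Fin n) :
    ∫ ω, x ω i * x ω j * x ω k ∂μ = 2 * ∫ ω, x ω k * t ω i j ∂μ := by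
  have s1 : ∀ a b c, ∫ ω, t ω a b * x ω c ∂μ = ∫ ω, t ω b a * x ω c ∂μ := fun a b c => by
    simp_rw [fun ω => hsymm ω a b]
  have h1 := hst i j k
  have h2 := hst j k i
  have h3 := hst i k j
  have e1 : ∫ ω, x ω k * x ω i * x ω j ∂μ = ∫ ω, x ω i * x ω j * x ω k ∂μ := by
    congr 1; funext ω; ring
  have e3 : ∫ ω, x ω j * x ω i * x ω k ∂μ = ∫ ω, x ω i * x ω j * x ω k ∂μ := by
    congr 1; funext ω; ring
  rw [e1] at h1
  rw [e3] at h3
  have r1 := s1 k i j
  have r2 := s1 k j i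
  have r3 := s1 j i k
  have e4 : ∫ ω, x ω k * t ω i j ∂μ = ∫ ω, t ω i j * x ω k ∂μ := by
    congr 1; funext ω; ring
  rw [e4]
  have r4 := s1 i j k
  linarith

/-- End of (S2). -/
theorem static_lin (μ : Measure Ω) [IsProbabilityMeasure μ] (x : Ω → Fin n → ℝ)
    (t : Ω → Fin n → Fin n → ℝ) (b : Fin n → ℝ) (C : ℝ)
    (hx : ∀ i, MemLp (fun ω => x ω i) 2 μ)
    (ht : ∀ i j, AEStronglyMeasurable (fun ω => t ω i j) μ) (htC : ∀ ω i j, |t ω i j| ≤ C)
    (hx0 : ∀ i, ∫ ω, x ω i ∂μ = 0)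
    (hxx : ∀ i j, ∫ ω, x ω i * x ω j ∂μ = if i = j then 1 else 0)
    (htt : ∀ i j, ∫ ω, t ω i j ∂μ = if i = j then 1 else 0)
    (hsymm : ∀ ω i j, t ω i j = t ω j i)
    (hpsd : ∀ ω (v : Fin n → ℝ), 0 ≤ ∑ i, ∑ j, t ω i j * v i * v j)
    (hst : ∀ i j k, ∫ ω, x ω k * x ω i * x ω j ∂μ =
      ∫ ω, t ω k i * x ω j ∂μ + ∫ ω, t ω k j * x ω i ∂μ)
    (hb : ∀ i, 0 ≤ b i)
    (hI : ∀ w : Fin n → ℝ, (∀ i, 0 ≤ w i) →
      2 * ∑ i, ∑ j, w i * w j * vr μ t i j ≤
        (∫ ω, (∑ i, ∑ j, w i * w j * t ω i j ^ 2) ∂μ) -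
          ∫ ω, (∑ k, b k * ∑ i, ∑ j, w i * w j * (t ω i j * t ω j k * t ω k i)) ∂μ)
    (c : Fin n → ℝ) (hc : ∀ i, 0 ≤ c i) :
    ∑ i, ∑ j, Real.sqrt (c i * c j) * ∑ k, (∫ ω, x ω i * x ω j * x ω k ∂μ) ^ 2 ≤
      ∑ i, c i * (4 * (yy (b i) - 1)) := by
  classical
  -- integrability
  have htm : ∀ i j, MemLp (fun ω => t ω i j) 2 μ := fun i j =>
    MemLp.of_bound (ht i j) C (Filter.Eventually.of_forall fun ω => by
      rw [Real.norm_eq_abs]; exact htC ω i j)
  have i1 : ∀ i j, Integrable (fun ω => t ω i j) μ := fun i j => (htm i j).integrable (by norm_num)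
  have i2 : ∀ i j, Integrable (fun ω => t ω i j ^ 2) μ := fun i j => (htm i j).integrable_sq
  have i3 : ∀ i j k, Integrable (fun ω => t ω i j * t ω j k * t ω k i) μ := fun i j k => by
    refine Integrable.of_bound (((ht i j).mul (ht j k)).mul (ht k i)) (C * C * C)
      (Filter.Eventually.of_forall fun ω => ?_)
    rw [Real.norm_eq_abs, abs_mul, abs_mul]
    have hC : 0 ≤ C := (abs_nonneg _).trans (htC ω i j)
    have a1 := htC ω i j
    have a2 := htC ω j k
    have a3 := htC ω k i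
    gcongr
  set y : Fin n → ℝ := fun i => yy (b i) with hy
  have hy0 : ∀ i, 0 < y i := fun i => (yy_facts (hb i)).1
  set d : Fin n → ℝ := fun i => 1 + 2 * (b i * y i) with hd
  have hd0 : ∀ i, 0 < d i := fun i => by
    have := mul_nonneg (hb i) (hy0 i).le
    simp only [hd]; linarith
  have hdy : ∀ i, 1 + b i * y i ^ 2 - 2 * (b i * y i) = d i * (y i - 1) := fun i =>
    (yy_facts (hb i)).2.2
  set w : Fin n → ℝ := fun i => Real.sqrt (c i / d i) with hw
  have hw0 : ∀ i, 0 ≤ w i := fun i => Real.sqrt_nonneg _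
  have hw2 : ∀ i, w i ^ 2 * d i = c i := fun i => by
    rw [hw, Real.sq_sqrt (div_nonneg (hc i) (hd0 i).le)]
    exact div_mul_cancel₀ _ (hd0 i).ne'
  have hV0 : ∀ i j, 0 ≤ vr μ t i j := fun i j =>
    (Finset.sum_nonneg fun k _ => sq_nonneg _).trans
      (bessel μ x (fun ω => t ω i j) hx (htm i j) hx0 hxx)
  have hVs : ∀ i j, vr μ t i j = vr μ t j i := fun i j => by
    unfold vr
    simp_rw [fun ω => hsymm ω i j]
  have hVt : ∀ i j, ∫ ω, t ω i j ^ 2 ∂μ = vr μ t i j + if i = j then 1 else 0 := fun i j => by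
    unfold vr
    rw [htt]
    split_ifs <;> ring
  -- Bessel for the third moments
  have hB : ∀ i j, ∑ k, (∫ ω, x ω i * x ω j * x ω k ∂μ) ^ 2 ≤ 4 * vr μ t i j := fun i j => by
    have h1 := bessel μ x (fun ω => t ω i j) hx (htm i j) hx0 hxx
    have h2 : ∑ k, (∫ ω, x ω i * x ω j * x ω k ∂μ) ^ 2 =
        4 * ∑ k, (∫ ω, x ω k * t ω i j ∂μ) ^ 2 := by
      rw [Finset.mul_sum]
      refine Finset.sum_congr rfl fun k _ => ?_
      rw [third_eq μ x t hsymm hst i j k]; ring
    rw [h2]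
    unfold vr
    linarith
  -- the pointwise inequality
  have hpt : ∀ ω, 2 * (∑ k, ∑ j, b k * y k * (w k * w j) * t ω k j ^ 2) -
      ∑ k, b k * y k ^ 2 * w k ^ 2 * t ω k k ≤
      ∑ k, b k * ∑ i, ∑ j, w i * w j * (t ω i j * t ω j k * t ω k i) := by
    intro ω
    rw [Finset.mul_sum, ← Finset.sum_sub_distrib]
    refine Finset.sum_le_sum fun k _ => ?_
    have h1 := hpsd ω (fun i => w i * (t ω i k - if i = k then y k else 0))
    have h2 : ∑ i, ∑ j, t ω i j * (w i * (t ω i k - if i = k then y k else 0)) *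
        (w j * (t ω j k - if j = k then y k else 0)) =
        (∑ i, ∑ j, w i * w j * (t ω i j * t ω j k * t ω k i))
          - 2 * (∑ j, y k * (w k * w j) * t ω k j ^ 2) + y k ^ 2 * w k ^ 2 * t ω k k := by
      have e1 : ∀ i j, t ω i j * (w i * (t ω i k - if i = k then y k else 0)) *
          (w j * (t ω j k - if j = k then y k else 0)) =
          w i * w j * (t ω i j * t ω j k * t ω k i)
          - (if i = k then w i * w j * t ω i j * t ω j k * y k else 0)
          - (if j = k then w i * w j * t ω i j * t ω i k * y k else 0)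
          + (if i = k then (if j = k then w i * w j * t ω i j * y k ^ 2 else 0) else 0) := by
        intro i j
        rw [hsymm ω k i]
        split_ifs <;> ring
      simp_rw [e1, Finset.sum_add_distrib, Finset.sum_sub_distrib]
      have f1 : ∑ i, ∑ j, (if i = k then w i * w j * t ω i j * t ω j k * y k else 0) =
          ∑ j, y k * (w k * w j) * t ω k j ^ 2 := by
        rw [Finset.sum_comm]
        refine Finset.sum_congr rfl fun j _ => ?_
        rw [Finset.sum_ite_eq' Finset.univ k]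
        simp only [Finset.mem_univ, if_true]
        rw [hsymm ω j k]; ring
      have f2 : ∑ i, ∑ j, (if j = k then w i * w j * t ω i j * t ω i k * y k else 0) =
          ∑ j, y k * (w k * w j) * t ω k j ^ 2 := by
        refine Finset.sum_congr rfl fun j _ => ?_
        rw [Finset.sum_ite_eq' Finset.univ k]
        simp only [Finset.mem_univ, if_true]
        rw [hsymm ω j k]; ring
      have f3 : ∑ i, ∑ j, (if i = k then (if j = k then w i * w j * t ω i j * y k ^ 2 else 0) else 0)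
          = y k ^ 2 * w k ^ 2 * t ω k k := by
        rw [Finset.sum_eq_single k]
        · rw [Finset.sum_eq_single k]
          · simp; ring
          · intro j _ hj; simp [hj]
          · simp
        · intro i _ hi; simp [hi]
        · simp
      rw [f1, f2, f3]; ring
    rw [h2] at h1
    have h3 := mul_nonneg (hb k) h1
    have h4 : 2 * (∑ j, b k * y k * (w k * w j) * t ω k j ^ 2) =
        b k * (2 * (∑ j, y k * (w k * w j) * t ω k j ^ 2)) := by
      rw [Finset.mul_sum, Finset.mul_sum, Finset.mul_sum]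
      exact Finset.sum_congr rfl fun j _ => by ring
    rw [h4]
    linarith
  -- integrate
  have hint : 2 * (∑ k, ∑ j, b k * y k * (w k * w j) * (vr μ t k j + if k = j then 1 else 0)) -
      ∑ k, b k * y k ^ 2 * w k ^ 2 ≤
      ∫ ω, (∑ k, b k * ∑ i, ∑ j, w i * w j * (t ω i j * t ω j k * t ω k i)) ∂μ := by
    have j1 : Integrable (fun ω => ∑ k, ∑ j, b k * y k * (w k * w j) * t ω k j ^ 2) μ :=
      integrable_finsetSum _ fun k _ => integrable_finsetSum _ fun j _ => (i2 k j).const_mul _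
    have j2 : Integrable (fun ω => ∑ k, b k * y k ^ 2 * w k ^ 2 * t ω k k) μ :=
      integrable_finsetSum _ fun k _ => (i1 k k).const_mul _
    have j3 : Integrable (fun ω => ∑ k, b k * ∑ i, ∑ j, w i * w j *
        (t ω i j * t ω j k * t ω k i)) μ :=
      integrable_finsetSum _ fun k _ => (integrable_finsetSum _ fun i _ =>
        integrable_finsetSum _ fun j _ => (i3 i j k).const_mul _).const_mul _
    have h1 := integral_mono ((j1.const_mul 2).sub j2) j3 hpt
    simp only [Pi.sub_apply] at h1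
    refine le_trans (le_of_eq ?_) h1
    have h2 : ∫ ω, (2 * (∑ k, ∑ j, b k * y k * (w k * w j) * t ω k j ^ 2) -
        ∑ k, b k * y k ^ 2 * w k ^ 2 * t ω k k) ∂μ =
        2 * (∫ ω, (∑ k, ∑ j, b k * y k * (w k * w j) * t ω k j ^ 2) ∂μ) -
          ∫ ω, (∑ k, b k * y k ^ 2 * w k ^ 2 * t ω k k) ∂μ := by
      rw [integral_sub (j1.const_mul 2) j2, integral_const_mul]
    rw [h2]
    congr 1
    · congr 1
      rw [integral_finsetSum _ fun k _ => integrable_finsetSum _ fun j _ => (i2 k j).const_mul _]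
      refine Finset.sum_congr rfl fun k _ => ?_
      rw [integral_finsetSum _ fun j _ => (i2 k j).const_mul _]
      refine Finset.sum_congr rfl fun j _ => ?_
      rw [integral_const_mul, hVt]
    · rw [integral_finsetSum _ fun k _ => (i1 k k).const_mul _]
      refine Finset.sum_congr rfl fun k _ => ?_
      rw [integral_const_mul, htt]
      simp
  have hsq : ∫ ω, (∑ i, ∑ j, w i * w j * t ω i j ^ 2) ∂μ =
      ∑ i, ∑ j, w i * w j * (vr μ t i j + if i = j then 1 else 0) := by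
    rw [integral_finsetSum _ fun k _ => integrable_finsetSum _ fun j _ => (i2 k j).const_mul _]
    refine Finset.sum_congr rfl fun k _ => ?_
    rw [integral_finsetSum _ fun j _ => (i2 k j).const_mul _]
    refine Finset.sum_congr rfl fun j _ => ?_
    rw [integral_const_mul, hVt]
  have hmain := hI w hw0
  rw [hsq] at hmain
  -- expand the Kronecker deltas
  have k1 : ∑ i, ∑ j, w i * w j * (vr μ t i j + if i = j then 1 else 0) =
      (∑ i, ∑ j, w i * w j * vr μ t i j) + ∑ i, w i ^ 2 := by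
    simp_rw [mul_add, Finset.sum_add_distrib]
    congr 1
    refine Finset.sum_congr rfl fun i _ => ?_
    simp [sq]
  have k2 : ∑ k, ∑ j, b k * y k * (w k * w j) * (vr μ t k j + if k = j then 1 else 0) =
      (∑ k, ∑ j, b k * y k * (w k * w j) * vr μ t k j) + ∑ k, b k * y k * w k ^ 2 := by
    simp_rw [mul_add, Finset.sum_add_distrib]
    congr 1
    refine Finset.sum_congr rfl fun i _ => ?_
    simp [sq]
  rw [k1] at hmain
  rw [k2] at hint
  -- conclusion
  have hfin : ∑ i, ∑ j, w i * w j * (1 + b i * y i + b j * y j) * vr μ t i j ≤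
      ∑ i, c i * (y i - 1) := by
    have e1 : ∑ i, ∑ j, w i * w j * (1 + b i * y i + b j * y j) * vr μ t i j =
        (∑ i, ∑ j, w i * w j * vr μ t i j) +
          2 * ∑ k, ∑ j, b k * y k * (w k * w j) * vr μ t k j := by
      have e2 : ∑ k, ∑ j, b k * y k * (w k * w j) * vr μ t k j =
          ∑ k, ∑ j, b j * y j * (w k * w j) * vr μ t k j := by
        rw [Finset.sum_comm]
        refine Finset.sum_congr rfl fun i _ => Finset.sum_congr rfl fun j _ => ?_
        rw [hVs j i]; ring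
      rw [two_mul]
      nth_rewrite 2 [e2]
      rw [← Finset.sum_add_distrib, ← Finset.sum_add_distrib]
      refine Finset.sum_congr rfl fun i _ => ?_
      rw [← Finset.sum_add_distrib, ← Finset.sum_add_distrib]
      exact Finset.sum_congr rfl fun j _ => by ring
    have e3 : ∑ i, c i * (y i - 1) = (∑ i, w i ^ 2) + (∑ k, b k * y k ^ 2 * w k ^ 2) -
        2 * ∑ k, b k * y k * w k ^ 2 := by
      rw [Finset.mul_sum, ← Finset.sum_add_distrib, ← Finset.sum_sub_distrib]
      refine Finset.sum_congr rfl fun i _ => ?_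
      rw [← hw2 i, mul_assoc, ← hdy i]; ring
    rw [e1, e3]
    linarith
  have hcmp : ∀ i j, Real.sqrt (c i * c j) * ∑ k, (∫ ω, x ω i * x ω j * x ω k ∂μ) ^ 2 ≤
      4 * (w i * w j * (1 + b i * y i + b j * y j) * vr μ t i j) := by
    intro i j
    have h1 : Real.sqrt (c i * c j) ≤ w i * w j * (1 + b i * y i + b j * y j) := by
      apply Real.sqrt_le_iff.2
      have hbi := mul_nonneg (hb i) (hy0 i).le
      have hbj := mul_nonneg (hb j) (hy0 j).le
      refine ⟨mul_nonneg (mul_nonneg (hw0 i) (hw0 j)) (by linarith), ?_⟩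
      have h2 : c i * c j = (w i * w j) ^ 2 * (d i * d j) := by
        rw [← hw2 i, ← hw2 j]; ring
      have h3 : d i * d j ≤ (1 + b i * y i + b j * y j) ^ 2 := by
        simp only [hd]
        nlinarith [sq_nonneg (b i * y i - b j * y j)]
      rw [h2, mul_pow (w i * w j)]
      exact mul_le_mul_of_nonneg_left h3 (sq_nonneg _)
    calc Real.sqrt (c i * c j) * ∑ k, (∫ ω, x ω i * x ω j * x ω k ∂μ) ^ 2
        ≤ (w i * w j * (1 + b i * y i + b j * y j)) * (4 * vr μ t i j) :=
          mul_le_mul h1 (hB i j) (Finset.sum_nonneg fun k _ => sq_nonneg _)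
            ((Real.sqrt_nonneg _).trans h1)
      _ = _ := by ring
  calc ∑ i, ∑ j, Real.sqrt (c i * c j) * ∑ k, (∫ ω, x ω i * x ω j * x ω k ∂μ) ^ 2
      ≤ ∑ i, ∑ j, 4 * (w i * w j * (1 + b i * y i + b j * y j) * vr μ t i j) :=
        Finset.sum_le_sum fun i _ => Finset.sum_le_sum fun j _ => hcmp i j
    _ = 4 * ∑ i, ∑ j, w i * w j * (1 + b i * y i + b j * y j) * vr μ t i j := by
        simp_rw [Finset.mul_sum]
    _ ≤ 4 * ∑ i, c i * (y i - 1) := by linarith
    _ = ∑ i, c i * (4 * (yy (b i) - 1)) := by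
        rw [Finset.mul_sum]
        exact Finset.sum_congr rfl fun i _ => by ring

end Vale.Agent.P254.NS
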