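import Vale.Agent.P254.NS.Lin
import Vale.Agent.P254.St625.Def0

/-!
# P254 near-sharp, end of (S2) in the notation of `St625.Def0` (helper655)
-/

open MeasureTheory Finset

namespace Vale.Agent.P254.NS

variable {n : ℕ} {Ω : Type*} [MeasurableSpace Ω]

theorem yy_eq {b : ℝ} (hb : 0 < b) : St625.yy b = yy b := by
  unfold St625.yy yy
  have hs : Real.sqrt (1 + 8 * b) ^ 2 = 1 + 8 * b := Real.sq_sqrt (by linarith)
  have hs0 : 0 ≤ Real.sqrt (1 + 8 * b) := Real.sqrt_nonneg _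
  rw [div_eq_div_iff (by positivity) (by positivity)]
  nlinarith

/-- End of (S2), `r`-form. -/
theorem static_lin_r (μ : Measure Ω) [IsProbabilityMeasure μ] (x : Ω → Fin n → ℝ)
    (t : Ω → Fin n → Fin n → ℝ) (b : Fin n → ℝ) (C : ℝ)
    (hx : ∀ i, MemLp (fun ω => x ω i) 2 μ)
    (ht : ∀ i j, AEStronglyMeasurable (fun ω => t ω i j) μ) (htC : ∀ ω i j, |t ω i j| ≤ C)
    (hx0 : ∀ i, ∫ ω, x ω i ∂μ = 0)
    (hxx : ∀ i j, ∫ ω, x ω i * x ω j ∂μ = if i = j then 1 else 0)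
    (htt : ∀ i j, ∫ ω, t ω i j ∂μ = if i = j then 1 else 0)
    (hsymm : ∀ ω i j, t ω i j = t ω j i)
    (hpsd : ∀ ω (v : Fin n → ℝ), 0 ≤ ∑ i, ∑ j, t ω i j * v i * v j)
    (hst : ∀ i j k, ∫ ω, x ω k * x ω i * x ω j ∂μ =
      ∫ ω, t ω k i * x ω j ∂μ + ∫ ω, t ω k j * x ω i ∂μ)
    (hb : ∀ i, 0 < b i)
    (hI : ∀ w : Fin n → ℝ, (∀ i, 0 ≤ w i) →
      2 * ∑ i, ∑ j, w i * w j * vr μ t i j ≤
        (∫ ω, (∑ i, ∑ j, w i * w j * t ω i j ^ 2) ∂μ) -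
          ∫ ω, (∑ k, b k * ∑ i, ∑ j, w i * w j * (t ω i j * t ω j k * t ω k i)) ∂μ)
    (r : Fin n → ℝ) (hr : ∀ i, 0 < r i) :
    ∑ i, ∑ j, r i * r j * ∑ k, (∫ ω, x ω i * x ω j * x ω k ∂μ) ^ 2 ≤
      ∑ i, r i ^ 2 * St625.kst (b i) := by
  have h := static_lin μ x t b C hx ht htC hx0 hxx htt hsymm hpsd hst (fun i => (hb i).le) hI
    (fun i => r i ^ 2) (fun i => sq_nonneg _)
  have e1 : ∀ i j, Real.sqrt (r i ^ 2 * r j ^ 2) = r i * r j := fun i j => by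
    rw [← mul_pow, Real.sqrt_sq (mul_nonneg (hr i).le (hr j).le)]
  simp_rw [e1] at h
  refine h.trans (le_of_eq ?_)
  refine Finset.sum_congr rfl fun i _ => ?_
  unfold St625.kst
  rw [yy_eq (hb i)]

end Vale.Agent.P254.NS
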