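import Mathlib

/-! # P254-X, block S3: the real inequality behind the profile `w'(x) = al + ga/(1+a x)`,
`a = 13/4`, `ga = 71/100`, `al = 29/100`, and the kernel bound. -/

namespace Vale.Agent.P254.NS.Num96

/-- the polynomial inequality, `t = sqrt (1+8x) - 1 ∈ [0,2]` -/
theorem poly_nonneg {t : ℝ} (h0 : 0 ≤ t) (h2 : t ≤ 2) :
    0 ≤ 277/200 - 3443/3200 * t - 1833/2560 * t^2 + 8957/25600 * t^3 + 4901/10240 * t^4
      + 4901/102400 * t^5 := by
  rcases le_total t 1 with h | h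
  · have u : 0 ≤ 1 - t := by linarith
    have e : 277/200 - 3443/3200 * t - 1833/2560 * t^2 + 8957/25600 * t^3 + 4901/10240 * t^4
      + 4901/102400 * t^5 = 277/200 * (1-t)^5 + 5 * (11698125/10000000) * (t * (1-t)^4)
        + 10 * (8830234375/10000000000) * (t^2 * (1-t)^3)
        + 10 * (55962109375/100000000000) * (t^3*(1-t)^2)
        + 5 * (33031640625/100000000000) * (t^4*(1-t))
        + (469404296875/1000000000000) * t^5 := by ring
    rw [e]; positivity
  · have u : 0 ≤ 2 - t := by linarith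
    have v : 0 ≤ t - 1 := by linarith
    have e : 277/200 - 3443/3200 * t - 1833/2560 * t^2 + 8957/25600 * t^3 + 4901/10240 * t^4
      + 4901/102400 * t^5 = (469404296875/1000000000000) * (2-t)^5
        + 5 * (6084921875/10000000000) * ((t-1) * (2-t)^4)
        + 10 * (111597265625/100000000000) * ((t-1)^2 * (2-t)^3)
        + 10 * (2266140625/1000000000) * ((t-1)^3*(2-t)^2)
        + 5 * (4476875/1000000) * ((t-1)^4*(2-t))
        + (83575/10000) * (t-1)^5 := by ring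
    rw [e]; positivity

/-- same as `S2Alg96.yy` -/
noncomputable def yy (b : ℝ) : ℝ := 4 / (1 + Real.sqrt (1 + 8 * b))

/-- **profile inequality**: `c(x) · 4 (yy x - 1) ≤ w'(x) (1 - x)` on `[0,1]` -/
theorem num {x : ℝ} (h0 : 0 ≤ x) (h1 : x ≤ 1) :
    (1/4 + (71/100) * (13/4) / 2 * (x / (1 + 13/4 * x)) ^ 2) * (4 * (yy x - 1))
      ≤ (29/100 + (71/100) / (1 + 13/4 * x)) * (1 - x) := by
  have hs0 : 0 ≤ 1 + 8 * x := by linarith
  have h2 := Real.sq_sqrt hs0
  have h3 := Real.sqrt_nonneg (1 + 8 * x)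
  unfold yy
  set s := Real.sqrt (1 + 8 * x) with hs
  have hs1 : 1 ≤ s := by nlinarith
  have hs3 : s ≤ 3 := by nlinarith
  have hx : x = (s ^ 2 - 1) / 8 := by linarith
  have hp := poly_nonneg (t := s - 1) (by linarith) (by linarith)
  have hA : 0 < 1 + 13/4 * x := by linarith
  have hS : 0 < 1 + s := by linarith
  -- multiply out
  have key : 0 ≤ ((29/100 * (1 + 13/4 * x)^2 + 71/100 * (1 + 13/4 * x)) * (3+s) * (1+s)
      - 8 * ((1 + 13/4*x)^2 + 2 * (71/100) * (13/4) * x^2)) := by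
    have e : ((29/100 * (1 + 13/4 * x)^2 + 71/100 * (1 + 13/4 * x)) * (3+s) * (1+s)
      - 8 * ((1 + 13/4*x)^2 + 2 * (71/100) * (13/4) * x^2))
      = (s - 1) * (277/200 - 3443/3200 * (s-1) - 1833/2560 * (s-1)^2 + 8957/25600 * (s-1)^3
        + 4901/10240 * (s-1)^4 + 4901/102400 * (s-1)^5) := by
      rw [hx]; ring
    rw [e]
    exact mul_nonneg (by linarith) hp
  have e2 : (29/100 + (71/100) / (1 + 13/4 * x)) * (1 - x)
      - (1/4 + (71/100) * (13/4) / 2 * (x / (1 + 13/4 * x)) ^ 2) * (4 * (4 / (1 + s) - 1))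
      = (3 - s) * ((29/100 * (1 + 13/4 * x)^2 + 71/100 * (1 + 13/4 * x)) * (3+s) * (1+s)
      - 8 * ((1 + 13/4*x)^2 + 2 * (71/100) * (13/4) * x^2)) / (8 * (1+s) * (1 + 13/4*x)^2) := by
    have h1x : 1 - x = (3 - s) * (3 + s) / 8 := by rw [hx]; ring
    rw [h1x]
    field_simp
    ring
  have h4 : 0 ≤ (3 - s) * ((29/100 * (1 + 13/4 * x)^2 + 71/100 * (1 + 13/4 * x)) * (3+s) * (1+s)
      - 8 * ((1 + 13/4*x)^2 + 2 * (71/100) * (13/4) * x^2)) / (8 * (1+s) * (1 + 13/4*x)^2) :=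
    div_nonneg (mul_nonneg (by linarith) key) (by positivity)
  linarith [e2, h4]

/-- kernel (Cauchy-Schwarz): `1/4 + k u v ≤ sqrt ((1/4 + k u²)(1/4 + k v²))` -/
theorem kernel {k u v : ℝ} (hk : 0 ≤ k) :
    1/4 + k * u * v ≤ Real.sqrt ((1/4 + k * u^2) * (1/4 + k * v^2)) := by
  apply Real.le_sqrt_of_sq_le
  nlinarith [mul_nonneg hk (sq_nonneg (u - v))]

/-- divided difference of `w'` -/
theorem dd {a ga al x y : ℝ} (hx : 1 + a * x ≠ 0) (hy : 1 + a * y ≠ 0) :
    (al + ga / (1 + a * x)) - (al + ga / (1 + a * y))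
      = - (ga * a / ((1 + a * x) * (1 + a * y))) * (x - y) := by
  field_simp
  ring

/-- the loss: `∫₀¹ w' = al + ga log(1+a)/a ≤ 6062/10000`, i.e. `log (17/4) ≤ 1.4472` -/
theorem loss : (29/100 : ℝ) + (71/100) * Real.log (17/4) / (13/4) ≤ 6062/10000 := by
  have h2 := Real.log_two_lt_d9
  -- log (17/4) = 2 log 2 + log (17/16), log(17/16) ≤ 1/16
  have e : Real.log (17/4) = 2 * Real.log 2 + Real.log (17/16) := by
    rw [show (17/4 : ℝ) = 2 ^ 2 * (17/16) by norm_num, Real.log_mul (by norm_num) (by norm_num),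
      Real.log_pow]
    push_cast
    ring
  have h3 : Real.log (17/16) ≤ 607/10000 := by
    have h := Real.abs_log_sub_add_sum_range_le (x := (1/17 : ℝ)) (by rw [abs_of_pos] <;> norm_num) 3
    rw [show (1 : ℝ) - 1/17 = (17/16)⁻¹ by norm_num, Real.log_inv, abs_of_pos (show (0:ℝ) < 1/17 by norm_num)] at h
    simp only [Finset.sum_range_succ, Finset.sum_range_zero] at h
    have h' := (abs_le.1 h).1
    norm_num at h'
    linarith
  rw [e]
  linarith

end Vale.Agent.P254.NS.Num96
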