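import Mathlib

/-! # P254-X, block S2: the algebraic part of the static inequality.

`t` = value of `τ`, `v i j = Var τ_ij`, `w` weights, `B = diag b ≤ V''`, `Cov = 1`, `E τ = 1`. -/

open Finset

namespace Vale.Agent.P254.NS.S2Alg96

/-- pointwise completion: `(t-Y) W t W (t-Y) ≥ 0`, contracted with `B ≥ 0` -/
theorem pw_complete {n : ℕ} (t : Fin n → Fin n → ℝ) (hs : ∀ i j, t i j = t j i)
    (hp : ∀ u : Fin n → ℝ, 0 ≤ ∑ a, ∑ c, u a * t a c * u c)
    (w b y : Fin n → ℝ) (hb : ∀ i, 0 ≤ b i) :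
    (∑ i, ∑ j, w i * w j * (b i * y i + b j * y j) * (t i j) ^ 2)
        - ∑ i, b i * y i ^ 2 * w i ^ 2 * t i i
      ≤ ∑ i, b i * ∑ a, ∑ c, (t i a * w a) * t a c * (t i c * w c) := by
  have key : ∀ i, 2 * y i * ∑ c, w i * w c * (t i c) ^ 2 - y i ^ 2 * w i ^ 2 * t i i
      ≤ ∑ a, ∑ c, (t i a * w a) * t a c * (t i c * w c) := by
    intro i
    have h := hp (fun a => t i a * w a - (if a = i then y i * w i else 0))
    have e : ∀ a c, (t i a * w a - (if a = i then y i * w i else 0)) * t a c *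
        (t i c * w c - (if c = i then y i * w i else 0))
        = (t i a * w a) * t a c * (t i c * w c)
          - (if a = i then y i * w i * t a c * (t i c * w c) else 0)
          - (if c = i then t i a * w a * t a c * (y i * w i) else 0)
          + (if a = i then (if c = i then y i ^ 2 * w i ^ 2 * t i i else 0) else 0) := by
      intro a c
      by_cases ha : a = i <;> by_cases hc : c = i
      · subst ha; subst hc; simp; ring
      · subst ha; simp [hc]; ring
      · subst hc; simp [ha]; ring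
      · simp [ha, hc]
    simp only [e, Finset.sum_add_distrib, Finset.sum_sub_distrib] at h
    have e1 : ∑ a, ∑ c, (if a = i then y i * w i * t a c * (t i c * w c) else 0)
        = y i * ∑ c, w i * w c * (t i c) ^ 2 := by
      rw [Finset.sum_eq_single i]
      · simp only [if_true, Finset.mul_sum]
        refine Finset.sum_congr rfl fun c _ => ?_
        ring
      · intro a _ ha; simp [ha]
      · intro h; exact absurd (Finset.mem_univ i) h
    have e2 : ∑ a, ∑ c, (if c = i then t i a * w a * t a c * (y i * w i) else 0)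
        = y i * ∑ c, w i * w c * (t i c) ^ 2 := by
      rw [Finset.mul_sum]
      refine Finset.sum_congr rfl fun a _ => ?_
      rw [Finset.sum_ite_eq' Finset.univ i]
      simp only [Finset.mem_univ, if_true]
      rw [hs a i]; ring
    have e3 : ∑ a, ∑ c, (if a = i then (if c = i then y i ^ 2 * w i ^ 2 * t i i else 0) else 0)
        = y i ^ 2 * w i ^ 2 * t i i := by
      rw [Finset.sum_eq_single i]
      · simp
      · intro a _ ha; simp [ha]
      · intro h; exact absurd (Finset.mem_univ i) h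
    rw [e1, e2, e3] at h
    linarith
  have k2 : ∑ i, b i * (2 * y i * ∑ c, w i * w c * (t i c) ^ 2 - y i ^ 2 * w i ^ 2 * t i i)
      ≤ ∑ i, b i * ∑ a, ∑ c, (t i a * w a) * t a c * (t i c * w c) :=
    Finset.sum_le_sum fun i _ => mul_le_mul_of_nonneg_left (key i) (hb i)
  have s1 : ∑ i, ∑ j, w i * w j * (b i * y i + b j * y j) * (t i j) ^ 2
      = ∑ i, b i * (2 * y i * ∑ c, w i * w c * (t i c) ^ 2) := by
    have a1 : ∑ i, ∑ j, w i * w j * (b i * y i + b j * y j) * (t i j) ^ 2
        = (∑ i, ∑ j, b i * y i * (w i * w j * (t i j) ^ 2))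
          + ∑ i, ∑ j, b j * y j * (w i * w j * (t i j) ^ 2) := by
      simp only [← Finset.sum_add_distrib]
      refine Finset.sum_congr rfl fun i _ => Finset.sum_congr rfl fun j _ => ?_
      ring
    have a2 : ∑ i, ∑ j, b j * y j * (w i * w j * (t i j) ^ 2)
        = ∑ i, ∑ j, b i * y i * (w i * w j * (t i j) ^ 2) := by
      rw [Finset.sum_comm]
      refine Finset.sum_congr rfl fun i _ => Finset.sum_congr rfl fun j _ => ?_
      rw [hs j i]; ring
    rw [a1, a2, ← two_mul, Finset.mul_sum]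
    refine Finset.sum_congr rfl fun i _ => ?_
    rw [Finset.mul_sum, Finset.mul_sum, Finset.mul_sum]
    refine Finset.sum_congr rfl fun j _ => ?_
    ring
  have s2 : ∑ i, b i * (2 * y i * ∑ c, w i * w c * (t i c) ^ 2 - y i ^ 2 * w i ^ 2 * t i i)
      = (∑ i, b i * (2 * y i * ∑ c, w i * w c * (t i c) ^ 2))
        - ∑ i, b i * y i ^ 2 * w i ^ 2 * t i i := by
    rw [← Finset.sum_sub_distrib]
    refine Finset.sum_congr rfl fun i _ => ?_
    ring
  rw [s1]
  linarith [k2, s2]

/-- the middle inequality, from (N) and the expectation of `pw_complete` -/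
theorem mid {n : ℕ} (b w y : Fin n → ℝ) (v : Fin n → Fin n → ℝ) (X : ℝ)
    (hN : 2 * ∑ i, ∑ j, w i * w j * v i j
      ≤ (∑ i, ∑ j, w i * w j * (v i j + if i = j then 1 else 0)) - X)
    (hX : (∑ i, ∑ j, w i * w j * (b i * y i + b j * y j) * (v i j + if i = j then 1 else 0))
        - ∑ i, b i * y i ^ 2 * w i ^ 2 ≤ X) :
    ∑ i, ∑ j, w i * w j * (1 + b i * y i + b j * y j) * v i j
      ≤ ∑ i, w i ^ 2 * (1 + b i * y i ^ 2 - 2 * b i * y i) := by
  have d1 : ∑ i, ∑ j, w i * w j * (v i j + if i = j then 1 else 0)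
      = (∑ i, ∑ j, w i * w j * v i j) + ∑ i, w i ^ 2 := by
    rw [← Finset.sum_add_distrib]
    refine Finset.sum_congr rfl fun i _ => ?_
    have : ∀ j, w i * w j * (v i j + if i = j then 1 else 0)
        = w i * w j * v i j + if i = j then w i * w j else 0 := by
      intro j; split_ifs <;> ring
    simp only [this, Finset.sum_add_distrib, Finset.sum_ite_eq, Finset.mem_univ, if_true]
    ring
  have d2 : ∑ i, ∑ j, w i * w j * (b i * y i + b j * y j) * (v i j + if i = j then 1 else 0)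
      = (∑ i, ∑ j, w i * w j * (b i * y i + b j * y j) * v i j) + ∑ i, 2 * b i * y i * w i ^ 2 := by
    rw [← Finset.sum_add_distrib]
    refine Finset.sum_congr rfl fun i _ => ?_
    have : ∀ j, w i * w j * (b i * y i + b j * y j) * (v i j + if i = j then 1 else 0)
        = w i * w j * (b i * y i + b j * y j) * v i j
          + if i = j then w i * w j * (b i * y i + b j * y j) else 0 := by
      intro j; split_ifs <;> ring
    simp only [this, Finset.sum_add_distrib, Finset.sum_ite_eq, Finset.mem_univ, if_true]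
    ring
  have d3 : ∑ i, ∑ j, w i * w j * (1 + b i * y i + b j * y j) * v i j
      = (∑ i, ∑ j, w i * w j * v i j) + ∑ i, ∑ j, w i * w j * (b i * y i + b j * y j) * v i j := by
    simp only [← Finset.sum_add_distrib]
    refine Finset.sum_congr rfl fun i _ => Finset.sum_congr rfl fun j _ => ?_
    ring
  have d4 : ∑ i, w i ^ 2 * (1 + b i * y i ^ 2 - 2 * b i * y i)
      = (∑ i, w i ^ 2) + (∑ i, b i * y i ^ 2 * w i ^ 2) - ∑ i, 2 * b i * y i * w i ^ 2 := by
    simp only [← Finset.sum_add_distrib, ← Finset.sum_sub_distrib]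
    refine Finset.sum_congr rfl fun i _ => ?_
    ring
  rw [d1] at hN
  rw [d2] at hX
  rw [d3, d4]
  linarith

/-- the optimal `y`: positive root of `b y² + y = 2` -/
noncomputable def yy (b : ℝ) : ℝ := 4 / (1 + Real.sqrt (1 + 8 * b))

theorem yy_eq {b : ℝ} (hb : 0 ≤ b) : b * yy b ^ 2 + yy b = 2 := by
  unfold yy
  have h1 : 0 ≤ 1 + 8 * b := by linarith
  have h2 := Real.sq_sqrt h1
  have h3 := Real.sqrt_nonneg (1 + 8 * b)
  set s := Real.sqrt (1 + 8 * b) with hs
  have h4 : (1 + s) ≠ 0 := by positivity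
  have h5 : b = (s ^ 2 - 1) / 8 := by linarith
  rw [h5]
  field_simp
  ring

theorem yy_pos (b : ℝ) : 0 < yy b := by
  unfold yy
  have h3 := Real.sqrt_nonneg (1 + 8 * b)
  positivity

/-- `yy` in the form of the note, for `b > 0` -/
theorem yy_eq' {b : ℝ} (hb : 0 < b) : yy b = (Real.sqrt (1 + 8 * b) - 1) / (2 * b) := by
  unfold yy
  have h1 : 0 ≤ 1 + 8 * b := by linarith
  have h2 := Real.sq_sqrt h1
  have h3 := Real.sqrt_nonneg (1 + 8 * b)
  have h4 : (1 + Real.sqrt (1 + 8 * b)) ≠ 0 := by positivity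
  rw [div_eq_div_iff h4 (by positivity)]
  nlinarith

theorem yy_ge_one {b : ℝ} (hb1 : b ≤ 1) : 1 ≤ yy b := by
  unfold yy
  have h3 := Real.sqrt_nonneg (1 + 8 * b)
  rw [le_div_iff₀ (by positivity)]
  have : Real.sqrt (1 + 8 * b) ≤ 3 := by
    rw [Real.sqrt_le_left (by norm_num)]
    linarith
  linarith

/-- **end of S2-ALG**: from the middle inequality for all `w ≥ 0` to the weighted form -/
theorem fin {n : ℕ} (b : Fin n → ℝ) (hb : ∀ i, 0 ≤ b i) (v : Fin n → Fin n → ℝ)
    (hv : ∀ i j, 0 ≤ v i j)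
    (hmid : ∀ w : Fin n → ℝ, (∀ i, 0 ≤ w i) →
      ∑ i, ∑ j, w i * w j * (1 + b i * yy (b i) + b j * yy (b j)) * v i j
        ≤ ∑ i, w i ^ 2 * (1 + b i * yy (b i) ^ 2 - 2 * b i * yy (b i)))
    (c : Fin n → ℝ) (hc : ∀ i, 0 ≤ c i) :
    ∑ i, ∑ j, Real.sqrt (c i * c j) * v i j ≤ ∑ i, c i * (yy (b i) - 1) := by
  set D : Fin n → ℝ := fun i => 1 + 2 * b i * yy (b i) with hD
  have hDpos : ∀ i, 0 < D i := fun i => by
    have := mul_nonneg (hb i) (yy_pos (b i)).le
    simp only [hD]; nlinarith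
  set w : Fin n → ℝ := fun i => Real.sqrt (c i / D i) with hw
  have hw0 : ∀ i, 0 ≤ w i := fun i => Real.sqrt_nonneg _
  have hw2 : ∀ i, w i ^ 2 = c i / D i := fun i => Real.sq_sqrt (div_nonneg (hc i) (hDpos i).le)
  have h := hmid w hw0
  have r : ∑ i, w i ^ 2 * (1 + b i * yy (b i) ^ 2 - 2 * b i * yy (b i))
      = ∑ i, c i * (yy (b i) - 1) := by
    refine Finset.sum_congr rfl fun i _ => ?_
    have e := yy_eq (hb i)
    have e2 : 1 + b i * yy (b i) ^ 2 - 2 * b i * yy (b i) = (yy (b i) - 1) * D i := by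
      simp only [hD]; nlinarith
    rw [e2, hw2 i]
    have := (hDpos i).ne'
    field_simp
  rw [r] at h
  refine le_trans ?_ h
  refine Finset.sum_le_sum fun i _ => Finset.sum_le_sum fun j _ => ?_
  refine mul_le_mul_of_nonneg_right ?_ (hv i j)
  have hDD : Real.sqrt (D i * D j) ≤ 1 + b i * yy (b i) + b j * yy (b j) := by
    have hs : 1 + b i * yy (b i) + b j * yy (b j) = (D i + D j) / 2 := by simp only [hD]; ring
    rw [hs]
    rw [Real.sqrt_le_left (by linarith [hDpos i, hDpos j])]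
    nlinarith [sq_nonneg (D i - D j)]
  have hww : w i * w j = Real.sqrt (c i * c j) / Real.sqrt (D i * D j) := by
    simp only [hw]
    rw [← Real.sqrt_mul (div_nonneg (hc i) (hDpos i).le), ← Real.sqrt_div (mul_nonneg (hc i) (hc j))]
    congr 1
    rw [div_mul_div_comm]
  have hsD : 0 < Real.sqrt (D i * D j) := Real.sqrt_pos.2 (mul_pos (hDpos i) (hDpos j))
  rw [hww, div_mul_eq_mul_div, le_div_iff₀ hsD]
  exact mul_le_mul_of_nonneg_left hDD (Real.sqrt_nonneg _)

end Vale.Agent.P254.NS.S2Alg96
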